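import Vale.Agent.P113.Final

open Vale.Agent.P113 Set

theorem Vale.Agent.Results.P113.Main.result (ν : ℝ) (hν : 0 < ν) (hc : ComputableReal ν) :
    ∃ (a : Pt) (O : Set (Fin 3 → UnitAddCircle)) (C : Desc × List ℕ → Nat.Partrec.Code)
      (f : (M : Machine) → List (Fin (M.m + 1)) → ℝ → Pt → Pt) (T₀ : ℝ),
      IsOpen O ∧ Computable C ∧ 0 ≤ T₀ ∧
      (∀ M w, SmoothField (f M w) ∧ Effective (C (M.desc, w.map Fin.val)) (f M w)) ∧
      (∀ M, (∃ τ : ℝ, 0 < τ ∧ ∀ w t, T₀ ≤ t → f M w (t + τ) = f M w t) ∧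
        ∀ w w' t, T₀ ≤ t → f M w t = f M w' t) ∧
      ∀ M w, ∃ (u : ℝ → Pt → Pt) (p : ℝ → Pt → ℝ),
        SmoothField u ∧ ContDiff ℝ (⊤ : ℕ∞) (fun z : ℝ × Pt => p z.1 z.2) ∧
        (∀ T, 0 < T → IsClassical ν (f M w) T u p) ∧
        (∀ T, 0 < T → ∀ v q, IsClassical ν (f M w) T v q →
          ∀ t ∈ Icc 0 T, v t = u t ∧ q t = p t) ∧
        (∃ X, IsTraj u a X) ∧
        ∀ X, IsTraj u a X → ((∃ t : ℝ, 0 ≤ t ∧ proj (X t) ∈ O) ↔ M.Halts w) := by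
  obtain ⟨C, hC, hC'⟩ := exists_compiler hc
  refine ⟨vec 0 0 0, target, C, fun M w => force ν (M.desc, w.map Fin.val), 1, isOpen_target, hC,
    zero_le_one, fun M w => ⟨smooth_force hc _, hC' _⟩,
    fun M => ⟨⟨5, by norm_num, fun w t ht => force_periodic ν _ ht⟩,
      fun w w' t ht => force_indep ν _ _ _ ht⟩,
    fun M w => ⟨vel (M.desc, w.map Fin.val), fun _ _ => 0, smooth_vel _, contDiff_const,
      fun T hT => classical_vel ν _ hT,
      fun T hT v q h t ht => classical_unique hν.le (classical_vel ν _ hT) h ht, ?_,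
      fun X hX => detect M w hX⟩⟩
  rw [vel_eq]
  exact ⟨_, isTraj_traj (fun n => Fw_update _ _ _) _⟩
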